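import Vale.Agent.P130.Simple.Defs

/-!
# P130: the slope pattern on the plane over `ZMod q`

The indicator of the slope of `x` being `r`, minus its mean, is a combination of the nontrivial
characters, each with a coefficient vector proportional to `avec`.
-/

open Finset
open scoped ComplexConjugate

namespace Vale.Agent.P130.Simple.Pat

variable {q : ℕ} [Fact q.Prime]

/-- The standard character modulo `q`. -/
noncomputable def psi (x : ZMod q) : ℂ := ZMod.stdAddChar x

lemma psi_zero : psi (0 : ZMod q) = 1 := AddChar.map_zero_eq_one _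

lemma psi_add (x y : ZMod q) : psi (x + y) = psi x * psi y := AddChar.map_add_eq_mul _ x y

lemma psi_sum {ι : Type*} (s : Finset ι) (f : ι → ZMod q) :
    psi (∑ i ∈ s, f i) = ∏ i ∈ s, psi (f i) := by
  classical
  induction s using Finset.induction with
  | empty => simp [psi_zero]
  | insert a s ha ih => rw [sum_insert ha, prod_insert ha, psi_add, ih]

lemma norm_psi (x : ZMod q) : ‖psi x‖ = 1 := by simp [psi, ZMod.stdAddChar_apply, Circle.norm_coe]

lemma conj_psi (x : ZMod q) : conj (psi x) = psi (-x) := by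
  have h : psi (-x) = (psi x)⁻¹ := AddChar.map_neg_eq_inv _ x
  rw [h, Complex.inv_eq_conj (norm_psi x)]

lemma psi_int (j : ℤ) : psi (j : ZMod q) = Vale.Agent.P110.UF.ex ((j : ℝ) / q) := by
  rw [psi, ZMod.stdAddChar_coe, Vale.Agent.P110.UF.ex]
  congr 1
  push_cast
  ring

lemma sum_psi (y : ZMod q) : ∑ x : ZMod q, psi (x * y) = if y = 0 then (q : ℂ) else 0 := by
  have h := AddChar.sum_mulShift y (ZMod.isPrimitive_stdAddChar q)
  simpa [psi, ZMod.card, apply_ite (Nat.cast : ℕ → ℂ)] using h

/-- The slope of a vector, with `q` for the vertical vectors and for zero. -/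
def slope (x : ZMod q × ZMod q) : ℕ := if x.1 = 0 then q else (x.2 / x.1).val

/-- The slope distinguished by a character. -/
def pickZ (m : ZMod q × ZMod q) : ℕ := if m.2 = 0 then q else (-m.1 / m.2).val

lemma slope_le (x : ZMod q × ZMod q) : slope x ≤ q := by
  unfold slope
  split_ifs
  · exact le_rfl
  · exact (ZMod.val_lt _).le

lemma pickZ_le (m : ZMod q × ZMod q) : pickZ m ≤ q := by
  unfold pickZ
  split_ifs
  · exact le_rfl
  · exact (ZMod.val_lt _).le

lemma val_eq_iff {r : ℕ} (hr : r < q) (z : ZMod q) : z.val = r ↔ z = (r : ZMod q) := by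
  constructor
  · rintro rfl; rw [ZMod.natCast_zmod_val]
  · rintro rfl; exact ZMod.val_cast_of_lt hr

lemma line_top (x : ZMod q × ZMod q) :
    ∑ m ∈ (univ : Finset (ZMod q × ZMod q)).erase 0,
        (if pickZ m = q then psi (m.1 * x.1 + m.2 * x.2) else 0) =
      (if x.1 = 0 then (q : ℂ) else 0) - 1 := by
  have h0 : pickZ (0 : ZMod q × ZMod q) = q := by simp [pickZ]
  rw [sum_erase_eq_sub (mem_univ _), if_pos h0, ← sum_psi x.1, Fintype.sum_prod_type]
  congr 1
  · refine sum_congr rfl fun a _ => ?_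
    rw [sum_eq_single (0 : ZMod q)]
    · simp [pickZ]
    · intro b _ hb
      rw [if_neg]
      have h : pickZ (a, b) = (-a / b).val := if_neg hb
      rw [h]
      exact (ZMod.val_lt _).ne
    · simp
  · simp [psi_zero]

lemma line_low {r : ℕ} (hr : r < q) (x : ZMod q × ZMod q) :
    ∑ m ∈ (univ : Finset (ZMod q × ZMod q)).erase 0,
        (if pickZ m = r then psi (m.1 * x.1 + m.2 * x.2) else 0) =
      (if x.2 - r * x.1 = 0 then (q : ℂ) else 0) - 1 := by
  have h0 : pickZ (0 : ZMod q × ZMod q) ≠ r := by simp [pickZ]; omega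
  rw [sum_erase (f := fun m : ZMod q × ZMod q =>
      if pickZ m = r then psi (m.1 * x.1 + m.2 * x.2) else 0) _ (if_neg h0),
    Fintype.sum_prod_type_right]
  have e : (if x.2 - (r : ZMod q) * x.1 = 0 then (q : ℂ) else 0) - 1 =
      ∑ b ∈ (univ : Finset (ZMod q)).erase 0, psi (b * (x.2 - (r : ZMod q) * x.1)) := by
    rw [sum_erase_eq_sub (mem_univ _), sum_psi, zero_mul, psi_zero]
  rw [e, ← sum_subset (subset_univ ((univ : Finset (ZMod q)).erase 0))]
  · refine sum_congr rfl fun b hb => ?_
    have hb' : b ≠ 0 := (mem_erase.1 hb).1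
    rw [sum_eq_single (-((r : ZMod q) * b))]
    · rw [if_pos]
      · congr 1; ring
      · simp only [pickZ, if_neg hb', neg_neg]
        rw [val_eq_iff hr, mul_div_assoc, div_self hb', mul_one]
    · intro a _ ha
      rw [if_neg]
      simp only [pickZ, if_neg hb']
      rw [val_eq_iff hr, div_eq_iff hb']
      intro h
      exact ha (by rw [← h, neg_neg])
    · simp
  · intro b _ hb
    have hb' : b = 0 := by simpa using hb
    refine sum_eq_zero fun a _ => if_neg ?_
    simp [pickZ, hb']
    omega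

lemma sum_psi_erase (x : ZMod q × ZMod q) :
    ∑ m ∈ (univ : Finset (ZMod q × ZMod q)).erase 0, psi (m.1 * x.1 + m.2 * x.2) =
      (if x = 0 then (q : ℂ) ^ 2 else 0) - 1 := by
  rw [sum_erase_eq_sub (mem_univ _), Fintype.sum_prod_type]
  congr 1
  · simp only [psi_add, ← mul_sum, ← sum_mul, sum_psi]
    rcases x with ⟨a, b⟩
    by_cases ha : a = 0 <;> by_cases hb : b = 0 <;> simp [ha, hb, pow_two]
  · simp [psi_zero]

/-- The spread identity. -/
lemma spread (x : ZMod q × ZMod q) {r : ℕ} (hr : r ≤ q) :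
    (if slope x = r then (1 : ℂ) else 0) - mean q r =
      ∑ m ∈ (univ : Finset (ZMod q × ZMod q)).erase 0,
        (q : ℂ)⁻¹ * avec q (pickZ m) r * psi (m.1 * x.1 + m.2 * x.2) := by
  have hq : (q : ℂ) ≠ 0 := Nat.cast_ne_zero.2 (NeZero.ne q)
  have e : ∀ m : ZMod q × ZMod q,
      (q : ℂ)⁻¹ * avec q (pickZ m) r * psi (m.1 * x.1 + m.2 * x.2) =
        (q : ℂ)⁻¹ * (if pickZ m = r then psi (m.1 * x.1 + m.2 * x.2) else 0) -
          (q : ℂ)⁻¹ * (if r < q then (q : ℂ)⁻¹ else 0) * psi (m.1 * x.1 + m.2 * x.2) := by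
    intro m
    rw [avec]
    by_cases h : pickZ m = r
    · rw [if_pos h.symm, if_pos h]; ring
    · rw [if_neg (Ne.symm h), if_neg h]; ring
  rw [sum_congr rfl (fun m _ => e m), sum_sub_distrib, ← mul_sum, ← mul_sum, sum_psi_erase]
  rcases hr.eq_or_lt with rfl | hlt
  · rw [line_top]
    by_cases h1 : x.1 = 0
    · simp [slope, h1, mean]; field_simp
    · have hs : slope x ≠ r := by rw [slope, if_neg h1]; exact (ZMod.val_lt _).ne
      simp [h1, hs, mean]
  · rw [line_low hlt]
    simp only [mean, if_pos hlt]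
    by_cases h1 : x.1 = 0
    · have hs : slope x ≠ r := by rw [slope, if_pos h1]; omega
      have e2 : x.2 - (r : ZMod q) * x.1 = 0 ↔ x = 0 := by
        rw [h1, mul_zero, sub_zero, Prod.ext_iff]
        simp [h1]
      simp only [if_neg hs, e2]
      split_ifs <;> field_simp <;> ring
    · have hx : x ≠ 0 := fun h => h1 (by simp [h])
      have e2 : x.2 - (r : ZMod q) * x.1 = 0 ↔ slope x = r := by
        rw [slope, if_neg h1, val_eq_iff hlt, div_eq_iff h1, sub_eq_zero]
      simp only [e2, if_neg hx]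
      split_ifs <;> field_simp <;> ring

lemma norm_avec_sum_le (p : ℕ) (e : ℕ → ℂ) (he : ∀ r, ‖e r‖ ≤ 1) :
    ‖∑ r ∈ range (q + 1), avec q p r * e r‖ ≤ 2 := by
  refine (norm_sum_le _ _).trans ?_
  have h : ∀ r ∈ range (q + 1), ‖avec q p r * e r‖ ≤
      (if r = p then (1 : ℝ) else 0) + if r < q then (q : ℝ)⁻¹ else 0 := by
    intro r _
    rw [norm_mul]
    refine (mul_le_of_le_one_right (norm_nonneg _) (he r)).trans ?_
    rw [avec]
    refine (norm_sub_le _ _).trans (le_of_eq ?_)
    split_ifs <;> simp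
  refine (sum_le_sum h).trans ?_
  rw [sum_add_distrib]
  have h1 : ∑ r ∈ range (q + 1), (if r = p then (1 : ℝ) else 0) ≤ 1 := by
    rw [sum_ite_eq']
    split_ifs <;> norm_num
  have h2 : ∑ r ∈ range (q + 1), (if r < q then (q : ℝ)⁻¹ else 0) = 1 := by
    rw [sum_range_succ, sum_congr rfl (fun r hr => if_pos (mem_range.1 hr)), if_neg (lt_irrefl q)]
    simp [NeZero.ne q]
  linarith

end Vale.Agent.P130.Simple.Pat
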