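import Vale.Agent.P130.Simple.Pattern.Algebra

/-!
# P130: one coordinate of the pattern

`U a t = psi (a * floor (q t))` has its Fourier spectrum on the class of `a` modulo `q`, with
coefficient `sc q l` at `l`; these weights sum to one on every class.
-/

open Finset MeasureTheory
open scoped ComplexConjugate

namespace Vale.Agent.P130.Simple.Pat

open Vale.Agent.P110.UF (ex)

lemma ex_add (x y : ℝ) : ex (x + y) = ex x * ex y := by
  simp only [Vale.Agent.P110.UF.ex, ← Complex.exp_add]
  congr 1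
  push_cast
  ring

lemma norm_ex (x : ℝ) : ‖ex x‖ = 1 := Complex.norm_exp_ofReal_mul_I _

lemma conj_ex (x : ℝ) : conj (ex x) = ex (-x) := by
  simp only [Vale.Agent.P110.UF.ex, ← Complex.exp_conj, map_mul, Complex.conj_ofReal,
    Complex.conj_I]
  congr 1
  push_cast
  ring

lemma ex_zero : ex 0 = 1 := by simp [Vale.Agent.P110.UF.ex]

lemma ex_int (n : ℤ) : ex n = 1 := by
  rw [Vale.Agent.P110.UF.ex, ← Complex.exp_int_mul_two_pi_mul_I n]
  congr 1
  push_cast
  ring

lemma continuous_ex : Continuous ex := by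
  unfold Vale.Agent.P110.UF.ex
  fun_prop

lemma ex_periodic (l : ℤ) : Function.Periodic (fun t : ℝ => ex ((l : ℝ) * t)) 1 := by
  intro t
  simp only [mul_add, mul_one, ex_add, ex_int]

/-- The Fourier coefficient at `l` of a block of length `1 / q`, scaled to unit length. -/
noncomputable def sc (q : ℕ) (l : ℤ) : ℂ :=
  (q : ℂ) * ∫ t in (0 : ℝ)..(1 / (q : ℝ)), ex (-(l : ℝ) * t)

/-- The energy at `l`. -/
noncomputable def wt (q : ℕ) (l : ℤ) : ℝ := ‖sc q l‖ ^ 2

lemma wt_nonneg (q : ℕ) (l : ℤ) : 0 ≤ wt q l := sq_nonneg _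

lemma mul_conj_sc (q : ℕ) (l : ℤ) : sc q l * conj (sc q l) = (wt q l : ℂ) := by
  rw [Complex.mul_conj, Complex.normSq_eq_norm_sq, wt]

lemma conj_sc (q : ℕ) (l : ℤ) : conj (sc q l) = sc q (-l) := by
  simp only [sc, map_mul, Complex.conj_natCast, ← intervalIntegral.intervalIntegral_conj, conj_ex]
  congr 1
  refine intervalIntegral.integral_congr fun t _ => congrArg ex ?_
  push_cast
  ring

lemma sc_ne_zero {q : ℕ} (hq : q ≠ 0) {l : ℤ} (hl : ¬ (q : ℤ) ∣ l) : sc q l ≠ 0 := by
  have hl0 : l ≠ 0 := fun h => hl (h ▸ dvd_zero _)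
  set c : ℂ := -(2 * (Real.pi : ℂ) * l * Complex.I) with hc
  have hc0 : c ≠ 0 := by simp [hc, hl0, Real.pi_ne_zero]
  have e : ∀ t : ℝ, ex (-(l : ℝ) * t) = Complex.exp (c * t) := fun t => by
    rw [Vale.Agent.P110.UF.ex, hc]; congr 1; push_cast; ring
  rw [sc]
  simp only [e]
  rw [integral_exp_mul_complex hc0]
  refine mul_ne_zero (Nat.cast_ne_zero.2 hq) (div_ne_zero (sub_ne_zero.2 ?_) hc0)
  rw [Complex.ofReal_zero, mul_zero, Complex.exp_zero]
  intro h
  obtain ⟨n, hn⟩ := Complex.exp_eq_one_iff.1 h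
  apply hl
  refine ⟨-n, ?_⟩
  have hqc : (q : ℂ) ≠ 0 := Nat.cast_ne_zero.2 hq
  rw [hc] at hn
  push_cast at hn
  field_simp at hn
  have h3 : (l : ℂ) = (((q : ℤ) * -n : ℤ) : ℂ) := by push_cast; linear_combination -hn
  exact_mod_cast h3

section
variable {q : ℕ} [Fact q.Prime]

lemma q_pos : (0 : ℝ) < q := Nat.cast_pos.2 (NeZero.pos q)

/-- The coordinate of a point modulo `q`. -/
noncomputable def cell (q : ℕ) (t : ℝ) : ZMod q := (⌊(q : ℝ) * t⌋ : ZMod q)

lemma measurable_comp_cell {β : Type*} [MeasurableSpace β] (g : ZMod q → β) :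
    Measurable fun t => g (cell q t) :=
  (measurable_of_countable fun k : ℤ => g (k : ZMod q)).comp
    (Int.measurable_floor.comp (measurable_const_mul _))

lemma cell_periodic : Function.Periodic (cell q) 1 := by
  intro t
  simp only [cell, mul_add, mul_one, Int.floor_add_natCast, Int.cast_add, Int.cast_natCast,
    ZMod.natCast_self, add_zero]

lemma sum_range_zmod {M : Type*} [AddCommMonoid M] (g : ZMod q → M) :
    ∑ j ∈ range q, g (j : ZMod q) = ∑ x : ZMod q, g x := by
  refine sum_nbij' (fun j => (j : ZMod q)) ZMod.val ?_ ?_ ?_ ?_ ?_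
  · intros; exact mem_univ _
  · intro x _; exact mem_range.2 (ZMod.val_lt x)
  · intro j hj; exact ZMod.val_cast_of_lt (mem_range.1 hj)
  · intro x _; exact ZMod.natCast_zmod_val x
  · intros; rfl

lemma cell_integral (g : ZMod q → ℂ) (h : ℝ → ℂ) (hh : Continuous h) :
    ∫ t in (0 : ℝ)..1, g (cell q t) * h t =
      ∑ j ∈ range q, g (j : ZMod q) * ∫ t in ((j : ℝ) / q)..(((j + 1 : ℕ) : ℝ) / q), h t := by
  have hq := q_pos (q := q)
  have hint : ∀ a b : ℝ, IntervalIntegrable (fun t => g (cell q t) * h t) volume a b := by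
    intro a b
    obtain ⟨C, hC⟩ := Finite.exists_le (fun x => ‖g x‖)
    rw [intervalIntegrable_iff]
    refine Integrable.bdd_mul (c := C) (hh.intervalIntegrable a b).def' ?_ ?_
    · exact (measurable_comp_cell g).aestronglyMeasurable
    · exact Filter.Eventually.of_forall fun t => hC _
  have hs := intervalIntegral.sum_integral_adjacent_intervals
    (a := fun k : ℕ => (k : ℝ) / q) (n := q) (fun k _ => hint _ _)
  simp only [Nat.cast_zero, zero_div, div_self hq.ne'] at hs
  rw [← hs]
  refine sum_congr rfl fun j _ => ?_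
  rw [← intervalIntegral.integral_const_mul]
  refine intervalIntegral.integral_congr_Ioo_of_le ?_ fun t ht => ?_
  · push_cast; gcongr; linarith
  · have hf : ⌊(q : ℝ) * t⌋ = (j : ℤ) := by
      rw [Int.floor_eq_iff]
      obtain ⟨h1, h2⟩ := ht
      rw [div_lt_iff₀ hq] at h1
      rw [lt_div_iff₀ hq] at h2
      push_cast at h2 ⊢
      constructor <;> linarith
    simp only [cell, hf, Int.cast_natCast]

/-- The digit character of frequency `a`. -/
noncomputable def U (a : ZMod q) (t : ℝ) : ℂ := psi (a * cell q t)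

lemma measurable_U (a : ZMod q) : Measurable (U a) := measurable_comp_cell fun x => psi (a * x)

lemma norm_U (a : ZMod q) (t : ℝ) : ‖U a t‖ = 1 := norm_psi _

lemma U_periodic (a : ZMod q) : Function.Periodic (U a) 1 := fun t => by
  simp only [U, cell_periodic t]

lemma shift_integral {f : ℝ → ℂ} (hf : Function.Periodic f 1) (θ : ℝ) :
    ∫ t in (0 : ℝ)..1, f (θ + t) = ∫ t in (0 : ℝ)..1, f t := by
  rw [intervalIntegral.integral_comp_add_left, add_zero]
  simpa using hf.intervalIntegral_add_eq θ 0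

lemma U_mul_U (a b : ZMod q) (θ : ℝ) :
    ∫ t in (0 : ℝ)..1, U a (θ + t) * conj (U b (θ + t)) = if a = b then 1 else 0 := by
  rw [shift_integral (f := fun t => U a t * conj (U b t))
    (fun t => by simp only [U_periodic a t, U_periodic b t])]
  have h := cell_integral (fun x : ZMod q => psi (x * (a - b))) (fun _ => 1) continuous_const
  have e : ∀ t, U a t * conj (U b t) = psi (cell q t * (a - b)) * 1 := fun t => by
    rw [U, U, conj_psi, ← psi_add, mul_one]; congr 1; ring
  simp only [e, h]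
  have hq := q_pos (q := q)
  have e2 : ∀ j : ℕ, (∫ _t in ((j : ℝ) / q)..(((j + 1 : ℕ) : ℝ) / q), (1 : ℂ)) = (q : ℂ)⁻¹ :=
    fun j => by
      rw [intervalIntegral.integral_const, Complex.real_smul, mul_one]
      push_cast
      ring
  simp only [e2, ← sum_mul]
  rw [sum_range_zmod (fun x : ZMod q => psi (x * (a - b))), sum_psi]
  simp only [sub_eq_zero]
  split_ifs <;> simp [NeZero.ne q]

lemma U_mul_ex (a : ZMod q) (l : ℤ) (θ : ℝ) :
    ∫ t in (0 : ℝ)..1, U a (θ + t) * ex (-(l : ℝ) * (θ + t)) =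
      if (l : ZMod q) = a then sc q l else 0 := by
  rw [shift_integral (f := fun t => U a t * ex (-(l : ℝ) * t))
    (fun t => by
      have := ex_periodic (-l) t
      push_cast at this
      simp only [U_periodic a t, this])]
  rw [show (fun t => U a t * ex (-(l : ℝ) * t)) =
    fun t => (fun x : ZMod q => psi (a * x)) (cell q t) * ex (-(l : ℝ) * t) from rfl,
    cell_integral (fun x : ZMod q => psi (a * x)) (fun t => ex (-(l : ℝ) * t))
      (continuous_ex.comp (continuous_const.mul continuous_id))]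
  have hq := q_pos (q := q)
  have e2 : ∀ j : ℕ,
      psi (a * (j : ZMod q)) *
          (∫ t in ((j : ℝ) / q)..(((j + 1 : ℕ) : ℝ) / q), ex (-(l : ℝ) * t)) =
        psi ((j : ZMod q) * (a - (l : ZMod q))) * ((q : ℂ)⁻¹ * sc q l) := by
    intro j
    have hj : (((j + 1 : ℕ) : ℝ) / q) = (j : ℝ) / q + 1 / q := by push_cast; ring
    have hc := intervalIntegral.integral_comp_add_left (fun t => ex (-(l : ℝ) * t)) ((j : ℝ) / q)
      (a := 0) (b := 1 / (q : ℝ))
    rw [add_zero] at hc
    rw [hj, ← hc]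
    simp only [mul_add, ex_add, intervalIntegral.integral_const_mul]
    rw [sc, inv_mul_cancel_left₀ (Nat.cast_ne_zero.2 (NeZero.ne q))]
    have he : ex (-(l : ℝ) * ((j : ℝ) / q)) = psi (-((l : ZMod q) * (j : ZMod q))) := by
      have := psi_int (q := q) (-(l * j))
      push_cast at this
      rw [this]
      congr 1
      ring
    rw [he, ← mul_assoc, ← psi_add]
    congr 2
    ring
  simp only [e2, ← sum_mul]
  rw [sum_range_zmod (fun x : ZMod q => psi (x * (a - (l : ZMod q)))), sum_psi]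
  simp only [sub_eq_zero, eq_comm (a := a)]
  split_ifs
  · rw [mul_inv_cancel_left₀ (Nat.cast_ne_zero.2 (NeZero.ne q))]
  · simp

lemma ex_mul_ex (l l' : ℤ) (θ : ℝ) :
    ∫ t in (0 : ℝ)..1, ex ((l : ℝ) * (θ + t)) * conj (ex ((l' : ℝ) * (θ + t))) =
      if l = l' then 1 else 0 := by
  have e : ∀ x : ℝ, ex ((l : ℝ) * x) * conj (ex ((l' : ℝ) * x)) =
      ex (((l - l' : ℤ) : ℝ) * x) := fun x => by
    rw [conj_ex, ← ex_add]; congr 1; push_cast; ring
  simp only [e]
  rw [shift_integral (f := fun t => ex (((l - l' : ℤ) : ℝ) * t)) (ex_periodic _)]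
  split_ifs with h
  · simp [h, ex_zero]
  · set c : ℂ := 2 * (Real.pi : ℂ) * ((l - l' : ℤ) : ℂ) * Complex.I with hc
    have hc0 : c ≠ 0 := by simp [hc, Real.pi_ne_zero, sub_eq_zero, h]
    have e' : ∀ t : ℝ, ex (((l - l' : ℤ) : ℝ) * t) = Complex.exp (c * t) := fun t => by
      rw [Vale.Agent.P110.UF.ex, hc]; congr 1; push_cast; ring
    simp only [e']
    rw [integral_exp_mul_complex hc0, ← e' 1, ← e' 0, mul_one, mul_zero, ex_int, ex_zero]
    simp

lemma hasSum_wt (a : ZMod q) :
    HasSum (fun l : ℤ => if (l : ZMod q) = a then wt q l else 0) 1 := by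
  have hm : MemLp (U a) 2 (volume.restrict (Set.Ioc (0 : ℝ) 1)) :=
    MemLp.of_bound (measurable_U a).aestronglyMeasurable 1
      (Filter.Eventually.of_forall fun t => (norm_U a t).le)
  have h := hasSum_sq_fourierCoeffOn zero_lt_one hm
  simp only [norm_U, one_pow, intervalIntegral.integral_const, sub_zero, inv_one, one_smul] at h
  have e : ∀ l : ℤ, fourierCoeffOn zero_lt_one (U a) l =
      if (l : ZMod q) = a then sc q l else 0 := by
    intro l
    rw [fourierCoeffOn_eq_integral]
    have h2 := U_mul_ex a l 0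
    simp only [zero_add] at h2
    rw [← h2]
    simp only [sub_zero, div_one, one_smul, fourier_coe_apply, smul_eq_mul,
      Vale.Agent.P110.UF.ex]
    refine intervalIntegral.integral_congr fun t _ => ?_
    rw [mul_comm]
    congr 2
    push_cast
    ring
  convert h using 2 with l
  rw [e l]
  split_ifs <;> simp [wt]

lemma sum_wt_le (a : ZMod q) (T : Finset ℤ) (hT : ∀ l ∈ T, (l : ZMod q) = a) :
    ∑ l ∈ T, wt q l ≤ 1 := by
  have h := sum_le_hasSum T (fun l _ => by split_ifs <;> first | exact wt_nonneg q l | exact le_rfl)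
    (hasSum_wt a)
  rwa [sum_congr rfl fun l hl => if_pos (hT l hl)] at h

end

end Vale.Agent.P130.Simple.Pat
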