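import Vale.Agent.P130.Simple.Pattern.Line

/-!
# P130: the lifted characters of the pattern and their truncations

A character `m` of the plane lifts to the product of the digit characters of `vecOf m`.  Its
truncation `Sm` keeps primitive frequency vectors in a box; the truncations of distinct `m` are
disjoint and `rem` is the remainder.
-/

open Finset MeasureTheory
open scoped ComplexConjugate

namespace Vale.Agent.P130.Simple.Pat

open Vale.Agent.P110.UF (ex)

variable {q : ℕ} [Fact q.Prime] {n : ℕ}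

/-- The residues of a lifted character. -/
def vecOf (n : ℕ) (m : ZMod q × ZMod q) : Fin (n + 2) → ZMod q :=
  Fin.cons (m.1 + m.2) fun _ => m.1

lemma vecOf_inj : Function.Injective (vecOf (q := q) n) := by
  intro m m' h
  have h0 := congrFun h 0
  have h1 := congrFun h (Fin.succ 0)
  simp only [vecOf, Fin.cons_zero] at h0
  simp only [vecOf, Fin.cons_succ] at h1
  exact Prod.ext h1 (by rw [h1] at h0; exact add_left_cancel h0)

/-- The plane character of a frequency vector. -/
def cls (M : Fin (n + 2) → ℤ) : ZMod q × ZMod q :=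
  ((M (Fin.succ 0) : ZMod q), (M 0 : ZMod q) - (M (Fin.succ 0) : ZMod q))

/-- The point of the plane of a point of the torus. -/
noncomputable def point (q : ℕ) (x : Fin (n + 2) → ℝ) : ZMod q × ZMod q :=
  (∑ i, cell q (x i), cell q (x 0))

/-- The lifted character. -/
noncomputable def lift (m : ZMod q × ZMod q) (x : Fin (n + 2) → ℝ) : ℂ :=
  ∏ i, U (vecOf n m i) (x i)

lemma lift_eq (m : ZMod q × ZMod q) (x : Fin (n + 2) → ℝ) :
    lift m x = psi (m.1 * (point q x).1 + m.2 * (point q x).2) := by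
  simp only [lift, U, ← psi_sum, point]
  congr 1
  simp only [Fin.sum_univ_succ (n := n + 1), vecOf, Fin.cons_zero, Fin.cons_succ, ← mul_sum]
  ring

lemma measurable_slope_point :
    Measurable fun x : Fin (n + 2) → ℝ => slope (point q x) := by
  have h : Measurable fun k : Fin (n + 2) → ℤ =>
      slope ((∑ i, (k i : ZMod q)), (k 0 : ZMod q)) := measurable_of_countable _
  exact h.comp (measurable_pi_lambda _ fun i =>
    Int.measurable_floor.comp ((measurable_pi_apply i).const_mul _))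

lemma measurable_lift (m : ZMod q × ZMod q) : Measurable (lift (n := n) m) :=
  Finset.measurable_prod _ fun i _ => (measurable_U _).comp (measurable_pi_apply i)

lemma norm_lift (m : ZMod q × ZMod q) (x : Fin (n + 2) → ℝ) : ‖lift m x‖ = 1 := by
  simp [lift, norm_U]

/-- The coefficient of a frequency vector. -/
noncomputable def coef (q : ℕ) (M : Fin (n + 2) → ℤ) : ℂ := ∏ i, sc q (M i)

omit [Fact q.Prime] in
lemma conj_coef (M : Fin (n + 2) → ℤ) : coef q (-M) = conj (coef q M) := by
  simp [coef, map_prod, conj_sc]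

omit [Fact q.Prime] in
lemma norm_coef_sq (M : Fin (n + 2) → ℤ) : ‖coef q M‖ ^ 2 = ∏ i, wt q (M i) := by
  simp [coef, wt, prod_pow]

/-- Residue boxes. -/
noncomputable def cset (K : ℕ) (a : ZMod q) : Finset ℤ :=
  (Icc (-(K : ℤ)) K).filter fun l => (l : ZMod q) = a

open scoped Classical in
/-- The retained frequency vectors of a character. -/
noncomputable def Sm (K : ℕ) (n : ℕ) (m : ZMod q × ZMod q) : Finset (Fin (n + 2) → ℤ) :=
  (Fintype.piFinset fun i => cset K (vecOf n m i)).filter fun M =>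
    m.1 ≠ 0 ∧ coef q M ≠ 0 ∧ (∃ i : Fin (n + 1), 0 < M i.succ ∧ M i.succ < (q : ℤ)) ∧
      ∃ i : Fin (n + 1), -(q : ℤ) < M i.succ ∧ M i.succ < 0

lemma mem_Sm {K : ℕ} {m : ZMod q × ZMod q} {M : Fin (n + 2) → ℤ} :
    M ∈ Sm K n m ↔ (∀ i, (-(K : ℤ) ≤ M i ∧ M i ≤ K) ∧ (M i : ZMod q) = vecOf n m i) ∧
      m.1 ≠ 0 ∧ coef q M ≠ 0 ∧ (∃ i : Fin (n + 1), 0 < M i.succ ∧ M i.succ < (q : ℤ)) ∧
      ∃ i : Fin (n + 1), -(q : ℤ) < M i.succ ∧ M i.succ < 0 := by
  classical
  simp only [Sm, cset, mem_filter, Fintype.mem_piFinset, mem_Icc]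

lemma cast_eq_of_mem {K : ℕ} {m : ZMod q × ZMod q} {M : Fin (n + 2) → ℤ} (h : M ∈ Sm K n m) :
    (fun i => (M i : ZMod q)) = vecOf n m :=
  funext fun i => ((mem_Sm.1 h).1 i).2

lemma cls_eq_of_mem {K : ℕ} {m : ZMod q × ZMod q} {M : Fin (n + 2) → ℤ} (h : M ∈ Sm K n m) :
    cls M = m := by
  have h0 := congrFun (cast_eq_of_mem h) 0
  have h1 := congrFun (cast_eq_of_mem h) (Fin.succ 0)
  simp only [vecOf, Fin.cons_zero] at h0
  simp only [vecOf, Fin.cons_succ] at h1
  rw [cls, h0, h1, add_sub_cancel_left]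

lemma Sm_zero (K : ℕ) : Sm K n (0 : ZMod q × ZMod q) = ∅ :=
  eq_empty_of_forall_notMem fun _ h => (mem_Sm.1 h).2.1 rfl

lemma neg_mem_Sm {K : ℕ} {m : ZMod q × ZMod q} {M : Fin (n + 2) → ℤ} (h : M ∈ Sm K n m) :
    -M ∈ Sm K n (-m) := by
  obtain ⟨h1, hm, hc, ⟨i, hi⟩, ⟨j, hj⟩⟩ := mem_Sm.1 h
  refine mem_Sm.2 ⟨fun k => ⟨?_, ?_⟩, ?_, ?_, ⟨j, ?_⟩, ⟨i, ?_⟩⟩
  · have := (h1 k).1
    simp only [Pi.neg_apply]
    omega
  · simp only [Pi.neg_apply, Int.cast_neg, (h1 k).2, vecOf, Prod.fst_neg, Prod.snd_neg]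
    refine Fin.cases ?_ (fun i => ?_) k
    · simp [add_comm]
    · simp
  · simpa using hm
  · rw [conj_coef]; simpa using hc
  · simp only [Pi.neg_apply]; omega
  · simp only [Pi.neg_apply]; omega

lemma gcd_eq_one {K : ℕ} {m : ZMod q × ZMod q} {M : Fin (n + 2) → ℤ} (h : M ∈ Sm K n m) :
    univ.gcd M = 1 := by
  obtain ⟨h1, -, -, ⟨i, hi⟩, ⟨j, hj⟩⟩ := mem_Sm.1 h
  have e : ((M i.succ - M j.succ : ℤ) : ZMod q) = 0 := by
    simp [Int.cast_sub, (h1 i.succ).2, (h1 j.succ).2, vecOf]
  obtain ⟨t, ht⟩ := (ZMod.intCast_zmod_eq_zero_iff_dvd _ _).1 e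
  have hq0 : (0 : ℤ) < q := by exact_mod_cast NeZero.pos q
  have t1 : t = 1 := by
    have h2 : 0 < t := by nlinarith
    have h3 : t < 2 := by nlinarith
    omega
  subst t1
  have hn : ((univ.gcd M).natAbs : ℤ) = univ.gcd M := by
    have := Finset.normalize_gcd (s := (univ : Finset (Fin (n + 2)))) (f := M)
    rwa [← Int.abs_eq_normalize, Int.abs_eq_natAbs] at this
  have hdq : univ.gcd M ∣ (q : ℤ) := by
    have := dvd_sub (Finset.gcd_dvd (f := M) (mem_univ i.succ))
      (Finset.gcd_dvd (f := M) (mem_univ j.succ))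
    rwa [ht, mul_one] at this
  have hd := Finset.gcd_dvd (f := M) (mem_univ i.succ)
  rw [← hn] at hdq hd ⊢
  rcases (Nat.dvd_prime Fact.out).1 (Int.natCast_dvd_natCast.1 hdq) with h' | h'
  · rw [h', Nat.cast_one]
  · rw [h'] at hd
    have := Int.le_of_dvd hi.1 hd
    omega

/-- The retained energy of a character. -/
noncomputable def mass (K : ℕ) (n : ℕ) (m : ZMod q × ZMod q) : ℝ :=
  ∑ M ∈ Sm K n m, ‖coef q M‖ ^ 2

lemma mass_le_one (K : ℕ) (m : ZMod q × ZMod q) : mass K n m ≤ 1 := by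
  classical
  calc mass K n m ≤ ∑ M ∈ Fintype.piFinset fun i => cset K (vecOf n m i), ∏ i, wt q (M i) := by
        simp only [mass, norm_coef_sq]
        exact sum_le_sum_of_subset_of_nonneg (filter_subset _ _)
          fun M _ _ => prod_nonneg fun i _ => wt_nonneg _ _
    _ = ∏ i, ∑ l ∈ cset K (vecOf n m i), wt q l := by rw [prod_univ_sum]
    _ ≤ 1 := prod_le_one (fun i _ => sum_nonneg fun l _ => wt_nonneg _ _)
        fun i _ => sum_wt_le _ _ fun l hl => (mem_filter.1 hl).2

lemma sum_avoid_le (K : ℕ) (m : ZMod q × ZMod q) (r : ℤ) (hr : (r : ZMod q) = m.1) :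
    ∑ M ∈ Fintype.piFinset (Fin.cons (cset K (m.1 + m.2)) fun _ : Fin (n + 1) =>
        (cset K m.1).erase r), ∏ i, wt q (M i) ≤ (1 - wt q r) ^ (n + 1) := by
  rw [← prod_univ_sum, Fin.prod_univ_succ]
  simp only [Fin.cons_zero, Fin.cons_succ, prod_const, card_univ, Fintype.card_fin]
  have h1 : ∑ l ∈ cset K (m.1 + m.2), wt q l ≤ 1 := sum_wt_le _ _ fun l hl => (mem_filter.1 hl).2
  have h2 := sum_wt_le m.1 (insert r ((cset K m.1).erase r)) (fun l hl => by
    rcases mem_insert.1 hl with rfl | hl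
    · exact hr
    · exact (mem_filter.1 (mem_of_mem_erase hl)).2)
  rw [sum_insert (notMem_erase _ _)] at h2
  have h3 : 0 ≤ ∑ l ∈ (cset K m.1).erase r, wt q l := sum_nonneg fun l _ => wt_nonneg _ _
  exact (mul_le_of_le_one_left (pow_nonneg h3 _) h1).trans
    (pow_le_pow_left₀ h3 (by linarith) _)

/-- Nearly all the energy of a character is retained. -/
lemma mass_ge {K : ℕ} {m : ZMod q × ZMod q} (hm : m.1 ≠ 0) {ε δ : ℝ} (hε1 : ε ≤ 1)
    (hK : ∀ a : ZMod q, 1 - ε ≤ ∑ l ∈ cset K a, wt q l)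
    (hn : ∀ r : ℤ, (r : ZMod q) ≠ 0 → -(q : ℤ) < r → r < q → (1 - wt q r) ^ (n + 1) ≤ δ) :
    (1 - (n + 2 : ℕ) * ε) - 2 * δ ≤ mass K n m := by
  classical
  set B := Fintype.piFinset fun i => cset K (vecOf n m i) with hB
  set r : ℤ := (m.1.val : ℤ) with hr
  have hr1 : (r : ZMod q) = m.1 := by rw [hr, Int.cast_natCast, ZMod.natCast_zmod_val]
  have hr2 : ((r - q : ℤ) : ZMod q) = m.1 := by simp [hr1]
  have hv : 0 < m.1.val := Nat.pos_of_ne_zero fun h => hm (by rwa [← ZMod.val_eq_zero])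
  have hv2 := ZMod.val_lt m.1
  have hb : ∀ M ∈ B, ∀ i, M i ∈ cset K (vecOf n m i) := fun M hM => Fintype.mem_piFinset.1 hM
  set A : ℤ → Finset (Fin (n + 2) → ℤ) := fun s =>
    Fintype.piFinset (Fin.cons (cset K (m.1 + m.2)) fun _ : Fin (n + 1) => (cset K m.1).erase s)
    with hA
  have low : 1 - ((n + 2 : ℕ) : ℝ) * ε ≤ ∑ M ∈ B, ∏ i, wt q (M i) := by
    rw [hB, ← prod_univ_sum]
    calc 1 - ((n + 2 : ℕ) : ℝ) * ε ≤ (1 + (-ε)) ^ (n + 2) := by
          have := one_add_mul_le_pow (a := -ε) (by linarith) (n + 2)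
          linarith
      _ = ∏ _i : Fin (n + 2), (1 - ε) := by simp [sub_eq_add_neg]
      _ ≤ _ := prod_le_prod (fun _ _ => by linarith) fun i _ => hK _
  have split : ∀ M ∈ B, ∏ i, wt q (M i) ≤ (if M ∈ Sm K n m then ∏ i, wt q (M i) else 0) +
      ((if M ∈ A r then ∏ i, wt q (M i) else 0) +
        (if M ∈ A (r - q) then ∏ i, wt q (M i) else 0)) := by
    intro M hM
    have h0 : 0 ≤ ∏ i, wt q (M i) := prod_nonneg fun i _ => wt_nonneg _ _
    have hmem : ∀ s : ℤ, M ∉ A s → ∃ i : Fin (n + 1), M i.succ = s := by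
      intro s hs
      by_contra hne
      refine hs (Fintype.mem_piFinset.2 fun k => ?_)
      refine Fin.cases ?_ (fun i => ?_) k
      · have := hb M hM 0
        simpa [vecOf] using this
      · have := hb M hM i.succ
        simp only [vecOf, Fin.cons_succ] at this ⊢
        exact mem_erase.2 ⟨fun e => hne ⟨i, e⟩, this⟩
    by_cases a1 : M ∈ A r
    · rw [if_pos a1]; split_ifs <;> linarith
    by_cases a2 : M ∈ A (r - q)
    · rw [if_pos a2]; split_ifs <;> linarith
    by_cases hc : coef q M = 0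
    · have : ∏ i, wt q (M i) = 0 := by rw [← norm_coef_sq, hc]; simp
      simp [this]
    · obtain ⟨i, hi⟩ := hmem r a1
      obtain ⟨j, hj⟩ := hmem (r - q) a2
      have : M ∈ Sm K n m := by
        refine mem_filter.2 ⟨hM, hm, hc, ⟨i, ?_⟩, ⟨j, ?_⟩⟩ <;> omega
      rw [if_pos this, if_neg a1, if_neg a2]
      linarith
  have side : ∀ s : ℤ, (s : ZMod q) = m.1 → -(q : ℤ) < s → s < q →
      ∑ M ∈ B, (if M ∈ A s then ∏ i, wt q (M i) else 0) ≤ δ := by
    intro s h1 h2 h3
    refine le_trans ?_ ((sum_avoid_le (n := n) K m s h1).trans (hn s (h1 ▸ hm) h2 h3))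
    rw [← sum_filter]
    exact sum_le_sum_of_subset_of_nonneg (fun M hM => (mem_filter.1 hM).2)
      fun M _ _ => prod_nonneg fun i _ => wt_nonneg _ _
  have main : ∑ M ∈ B, (if M ∈ Sm K n m then ∏ i, wt q (M i) else 0) = mass K n m := by
    rw [← sum_filter]
    simp only [mass, norm_coef_sq]
    refine sum_congr (ext fun M => ?_) fun _ _ => rfl
    simp only [mem_filter, and_iff_right_iff_imp]
    exact fun h => (mem_filter.1 h).1
  have := sum_le_sum split
  rw [sum_add_distrib, sum_add_distrib, main] at this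
  have s1 := side r hr1 (by omega) (by omega)
  have s2 := side (r - q) hr2 (by omega) (by omega)
  linarith

/-! ### Integrals over the cube -/

/-- The coordinate measure. -/
noncomputable def nu : Measure ℝ := volume.restrict (Set.Ico (0 : ℝ) 1)

instance : IsProbabilityMeasure nu := ⟨by simp [nu]⟩

lemma restrict_cube (d : ℕ) :
    (volume : Measure (Fin d → ℝ)).restrict (cube d) = Measure.pi fun _ => nu := by
  rw [volume_pi, cube, Measure.restrict_pi_pi]
  rfl

lemma integral_nu (f : ℝ → ℂ) : ∫ t, f t ∂nu = ∫ t in (0 : ℝ)..1, f t := by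
  rw [nu, integral_Ico_eq_integral_Ioc, intervalIntegral.integral_of_le zero_le_one]

lemma chr_eq (M : Fin (n + 2) → ℤ) (x : Fin (n + 2) → ℝ) :
    chr M x = ∏ i, ex ((M i : ℝ) * x i) := by
  simp only [chr, Vale.Agent.P110.UF.ex, ← Complex.exp_sum]
  congr 1
  push_cast
  rw [mul_sum, sum_mul]

lemma measurable_chr (M : Fin (n + 2) → ℤ) : Measurable (chr M) := by
  unfold chr
  exact continuous_ex.measurable.comp (by fun_prop)

lemma lift_lift (m m' : ZMod q × ZMod q) (θ : Fin (n + 2) → ℝ) :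
    ∫ φ, lift m (θ + φ) * conj (lift m' (θ + φ)) ∂(Measure.pi fun _ => nu) =
      if m = m' then 1 else 0 := by
  simp only [lift, map_prod, ← prod_mul_distrib, Pi.add_apply]
  rw [integral_fintype_prod_eq_prod
    (fun i t => U (vecOf n m i) (θ i + t) * conj (U (vecOf n m' i) (θ i + t)))]
  simp only [integral_nu, U_mul_U, prod_ite_zero, prod_const_one, mem_univ, forall_const,
    ← funext_iff, vecOf_inj.eq_iff]

lemma lift_chr (m : ZMod q × ZMod q) (M : Fin (n + 2) → ℤ) (θ : Fin (n + 2) → ℝ) :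
    ∫ φ, lift m (θ + φ) * conj (chr M (θ + φ)) ∂(Measure.pi fun _ => nu) =
      if (fun i => (M i : ZMod q)) = vecOf n m then coef q M else 0 := by
  simp only [lift, chr_eq, map_prod, ← prod_mul_distrib, Pi.add_apply, conj_ex, ← neg_mul]
  rw [integral_fintype_prod_eq_prod
    (fun i t => U (vecOf n m i) (θ i + t) * ex (-(M i : ℝ) * (θ i + t)))]
  simp only [integral_nu, U_mul_ex, prod_ite_zero, mem_univ, forall_const, funext_iff, coef]

lemma chr_chr (M M' : Fin (n + 2) → ℤ) (θ : Fin (n + 2) → ℝ) :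
    ∫ φ, chr M (θ + φ) * conj (chr M' (θ + φ)) ∂(Measure.pi fun _ => nu) =
      if M = M' then 1 else 0 := by
  simp only [chr_eq, map_prod, ← prod_mul_distrib, Pi.add_apply]
  rw [integral_fintype_prod_eq_prod
    (fun i t => ex ((M i : ℝ) * (θ i + t)) * conj (ex ((M' i : ℝ) * (θ i + t))))]
  simp only [integral_nu, ex_mul_ex, prod_ite_zero, prod_const_one, mem_univ, forall_const,
    funext_iff]

/-- The truncated character. -/
noncomputable def trunc (K : ℕ) (m : ZMod q × ZMod q) (x : Fin (n + 2) → ℝ) : ℂ :=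
  ∑ M ∈ Sm K n m, coef q M * chr M x

/-- The remainder of the truncation. -/
noncomputable def rem (K : ℕ) (m : ZMod q × ZMod q) (x : Fin (n + 2) → ℝ) : ℂ :=
  lift m x - trunc K m x

lemma norm_chr (M : Fin (n + 2) → ℤ) (x : Fin (n + 2) → ℝ) : ‖chr M x‖ = 1 := norm_ex _

lemma integrable_bdd {f : (Fin (n + 2) → ℝ) → ℂ} (hf : Measurable f) {C : ℝ}
    (hC : ∀ x, ‖f x‖ ≤ C) (θ : Fin (n + 2) → ℝ) :
    Integrable (fun φ => f (θ + φ)) (Measure.pi fun _ => nu) :=
  Integrable.of_bound (hf.comp (measurable_const_add θ)).aestronglyMeasurable C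
    (Filter.Eventually.of_forall fun _ => hC _)

lemma measurable_trunc (K : ℕ) (m : ZMod q × ZMod q) : Measurable (trunc (n := n) K m) :=
  Finset.measurable_sum _ fun M _ => (measurable_chr M).const_mul _

lemma measurable_rem (K : ℕ) (m : ZMod q × ZMod q) : Measurable (rem (n := n) K m) :=
  (measurable_lift m).sub (measurable_trunc K m)

lemma norm_rem_le (K : ℕ) (m : ZMod q × ZMod q) (x : Fin (n + 2) → ℝ) :
    ‖rem K m x‖ ≤ 1 + ∑ M ∈ Sm K n m, ‖coef q M‖ := by
  refine (norm_sub_le _ _).trans ?_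
  rw [norm_lift]
  gcongr
  refine (norm_sum_le _ _).trans (le_of_eq ?_)
  exact sum_congr rfl fun M _ => by rw [norm_mul, norm_chr, mul_one]

lemma lift_trunc (K : ℕ) (m m' : ZMod q × ZMod q) (θ : Fin (n + 2) → ℝ) :
    ∫ φ, lift m (θ + φ) * conj (trunc K m' (θ + φ)) ∂(Measure.pi fun _ => nu) =
      if m = m' then (mass K n m : ℂ) else 0 := by
  simp only [trunc, map_sum, map_mul, mul_sum]
  rw [integral_finsetSum]
  · simp only [mul_left_comm _ (conj (coef q _)), integral_const_mul, lift_chr]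
    have e : ∀ M ∈ Sm K n m', conj (coef q M) *
        (if (fun i => (M i : ZMod q)) = vecOf n m then coef q M else 0) =
        if m = m' then ((‖coef q M‖ ^ 2 : ℝ) : ℂ) else 0 := by
      intro M hM
      rw [cast_eq_of_mem hM]
      simp only [vecOf_inj.eq_iff, eq_comm (a := m')]
      split_ifs
      · rw [mul_comm, Complex.mul_conj, Complex.normSq_eq_norm_sq]
      · rw [mul_zero]
    rw [sum_congr rfl e]
    by_cases h : m = m'
    · subst h; simp [mass]
    · simp [h]
  · intro M _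
    refine integrable_bdd (f := fun x => lift m x * (conj (coef q M) * conj (chr M x))) ?_
      (C := ‖coef q M‖) (fun x => ?_) θ
    · exact (measurable_lift m).mul
        ((Complex.continuous_conj.measurable.comp (measurable_chr M)).const_mul _)
    · simp [norm_lift, norm_chr]

lemma trunc_trunc (K : ℕ) (m m' : ZMod q × ZMod q) (θ : Fin (n + 2) → ℝ) :
    ∫ φ, trunc K m (θ + φ) * conj (trunc K m' (θ + φ)) ∂(Measure.pi fun _ => nu) =
      if m = m' then (mass K n m : ℂ) else 0 := by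
  classical
  simp only [trunc, map_sum, map_mul, sum_mul_sum]
  have hint : ∀ M M' : Fin (n + 2) → ℤ, Integrable (fun φ => coef q M * chr M (θ + φ) *
      (conj (coef q M') * conj (chr M' (θ + φ)))) (Measure.pi fun _ => nu) := fun M M' =>
    integrable_bdd (f := fun x => coef q M * chr M x * (conj (coef q M') * conj (chr M' x)))
      (((measurable_chr M).const_mul _).mul
        ((Complex.continuous_conj.measurable.comp (measurable_chr M')).const_mul _))
      (C := ‖coef q M‖ * ‖coef q M'‖) (fun x => by simp [norm_chr]) θ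
  rw [integral_finsetSum _ fun M _ => integrable_finsetSum _ fun M' _ => hint M M']
  rw [sum_congr rfl fun M _ => integral_finsetSum _ fun M' _ => hint M M']
  simp only [mul_mul_mul_comm (coef q _) _ (conj (coef q _)), integral_const_mul, chr_chr, mul_ite,
    mul_one, mul_zero, sum_ite_eq]
  by_cases h : m = m'
  · subst h
    rw [if_pos rfl, mass, Complex.ofReal_sum]
    refine sum_congr rfl fun M hM => ?_
    rw [if_pos hM, Complex.mul_conj, Complex.normSq_eq_norm_sq]
  · rw [if_neg h]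
    refine sum_eq_zero fun M hM => if_neg fun hM' => h ?_
    rw [← cls_eq_of_mem hM, ← cls_eq_of_mem hM']

lemma rem_rem (K : ℕ) (m m' : ZMod q × ZMod q) (θ : Fin (n + 2) → ℝ) :
    ∫ φ, rem K m (θ + φ) * conj (rem K m' (θ + φ)) ∂(Measure.pi fun _ => nu) =
      if m = m' then ((1 - mass K n m : ℝ) : ℂ) else 0 := by
  set ν := Measure.pi fun _ : Fin (n + 2) => nu
  have e : ∀ x : Fin (n + 2) → ℝ, rem K m x * conj (rem K m' x) =
      lift m x * conj (lift m' x) - lift m x * conj (trunc K m' x) -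
        (conj (lift m' x * conj (trunc K m x)) - trunc K m x * conj (trunc K m' x)) := fun x => by
    simp only [rem, map_sub, map_mul, Complex.conj_conj]
    ring
  have bl : ∀ m : ZMod q × ZMod q, ∀ x : Fin (n + 2) → ℝ,
      ‖trunc K m x‖ ≤ ∑ M ∈ Sm K n m, ‖coef q M‖ := fun m x => (norm_sum_le _ _).trans
    (le_of_eq (sum_congr rfl fun M _ => by rw [norm_mul, norm_chr, mul_one]))
  have cm : Measurable (starRingEnd ℂ) := Complex.continuous_conj.measurable
  have i1 : Integrable (fun φ => lift m (θ + φ) * conj (lift m' (θ + φ))) ν :=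
    integrable_bdd (f := fun x => lift m x * conj (lift m' x))
      ((measurable_lift m).mul (cm.comp (measurable_lift m'))) (C := 1)
      (fun x => by simp [norm_lift]) θ
  have i2 : Integrable (fun φ => lift m (θ + φ) * conj (trunc K m' (θ + φ))) ν :=
    integrable_bdd (f := fun x => lift m x * conj (trunc K m' x))
      ((measurable_lift m).mul (cm.comp (measurable_trunc K m')))
      (fun x => by simpa [norm_lift] using bl m' x) θ
  have i3 : Integrable (fun φ => conj (lift m' (θ + φ) * conj (trunc K m (θ + φ)))) ν :=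
    integrable_bdd (f := fun x => conj (lift m' x * conj (trunc K m x)))
      (cm.comp ((measurable_lift m').mul (cm.comp (measurable_trunc K m))))
      (fun x => by simpa [norm_lift] using bl m x) θ
  have i4 : Integrable (fun φ => trunc K m (θ + φ) * conj (trunc K m' (θ + φ))) ν :=
    integrable_bdd (f := fun x => trunc K m x * conj (trunc K m' x))
      ((measurable_trunc K m).mul (cm.comp (measurable_trunc K m')))
      (fun x => by
        rw [norm_mul, RCLike.norm_conj]
        exact mul_le_mul (bl m x) (bl m' x) (norm_nonneg _) (sum_nonneg fun _ _ => norm_nonneg _))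
      θ
  simp only [e]
  rw [integral_sub (i1.sub' i2) (i3.sub' i4), integral_sub i1 i2, integral_sub i3 i4,
    integral_conj, lift_lift, lift_trunc, lift_trunc, trunc_trunc]
  by_cases h : m = m'
  · subst h; simp
  · simp [h, Ne.symm h]

end Vale.Agent.P130.Simple.Pat
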